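import Vale.Agent.P099.H184.PT.Maps

/-! # P099, wave fronts (H366): averages over finitely many times, the pair measure. -/

namespace Vale.Agent.P099.H366

open MeasureTheory Set Filter Topology Vale.Agent.P099 Vale.Agent.P099T

/-- average of `f` over the times `t k`, `k ∈ s` -/
noncomputable def avg (s : Finset ℕ) (t : ℕ → ℝ) (f : ℝ → ℝ) : ℝ :=
  (s.card : ℝ)⁻¹ * ∑ k ∈ s, f (t k)

/-- the points at distance `> δ` from the complement of the table -/
def inner {N : ℕ} (T : PolygonalTable N) (δ : ℝ) : Set ℂ := {p | δ < Metric.infDist p T.Qᶜ}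

/-- time `s ∈ (0, δ]` and direction in `G` -/
noncomputable def rho (δ : ℝ) (G : Set ℂ) : Measure (ℝ × ℂ) :=
  ((volume : Measure ℝ).restrict (Ioc 0 δ)).prod (nu.restrict G)

/-- free motion -/
noncomputable def mv (p : ℂ) (z : ℝ × ℂ) : ℂ × ℂ := (p + z.1 • z.2, z.2)

/-- the law of two phase points that come from one position -/
noncomputable def M2 {N : ℕ} (T : PolygonalTable N) (δ : ℝ) (G : Set ℂ) :
    Measure ((ℂ × ℂ) × (ℂ × ℂ)) :=
  (((volume : Measure ℂ).restrict (inner T δ)).prod ((rho δ G).prod (rho δ G))).map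
    (fun x => (mv x.1 x.2.1, mv x.1 x.2.2))

end Vale.Agent.P099.H366
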