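import Vale.Agent.P099.R2.H366.Defs

/-! # P099, wave fronts (H366), row C1: free flight. -/

namespace Vale.Agent.P099.H366

open MeasureTheory Set Filter Topology Vale.Agent.P099 Vale.Agent.P099T

theorem rowC1_mem {N : ℕ} (T : PolygonalTable N) {δ : ℝ} {p θ : ℂ} (hp : p ∈ inner T δ)
    (hθ : ‖θ‖ = 1) {s : ℝ} (hs : s ∈ Icc 0 δ) : p + s • θ ∈ T.Q := by
  by_contra h
  have h1 : Metric.infDist p T.Qᶜ ≤ dist p (p + s • θ) := Metric.infDist_le_dist_of_mem h
  have h2 : dist p (p + s • θ) = s := by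
    rw [dist_eq_norm]
    have : p - (p + s • θ) = -(s • θ) := by ring
    rw [this, norm_neg, norm_smul, hθ, mul_one, Real.norm_eq_abs, abs_of_nonneg hs.1]
  have h3 : δ < Metric.infDist p T.Qᶜ := hp
  have h4 := hs.2
  linarith

theorem rowC1_side {N : ℕ} (T : PolygonalTable N) {x : ℂ} (hx : x ∈ T.Q) {i : Fin N} :
    x ∉ T.side i := by
  intro h
  have h1 : x ∈ frontier T.Q := by
    rw [T.frontier_eq]
    exact mem_iUnion.2 ⟨i, openSegment_subset_segment ℝ _ _ h⟩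
  rw [T.isOpen.frontier_eq] at h1
  exact h1.2 hx

/-- ROW C1 (free flight up to time `δ` from a point of `inner T δ`). -/
theorem rowC1 {N : ℕ} (T : PolygonalTable N) {δ : ℝ} {p θ : ℂ} (hp : p ∈ inner T δ)
    (hθ : ‖θ‖ = 1) {γ : ℝ → ℂ × ℂ} (h0 : γ 0 = (p, θ)) (hγ : T.IsTrajectory γ) {s : ℝ}
    (hs : s ∈ Icc 0 δ) : γ s = mv p (s, θ) := by
  set A : Set ℝ := {s | γ s = mv p (s, θ)} with hA
  have hδ : (0 : ℝ) ≤ δ := hs.1.trans hs.2
  -- a piece of the trajectory that agrees with the free motion once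
  have key : ∀ (t r : ℝ) (u : ℂ), t ∈ Icc 0 δ → r ∈ A →
      γ r = ((γ t).1 + (r - t) • u, u) → u = θ ∧ (γ t).1 = p + t • θ := by
    intro t r u _ hr h
    have hr' : γ r = (p + r • θ, θ) := hr
    rw [hr'] at h
    have e1 := congrArg Prod.fst h
    have e2 := congrArg Prod.snd h
    simp only at e1 e2
    subst e2
    refine ⟨rfl, ?_⟩
    have : (γ t).1 = (p + r • θ) - (r - t) • θ := by rw [e1]; ring
    rw [this, sub_smul]; ring
  have hcl : IsClosed (A ∩ Icc 0 δ) := by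
    refine isClosed_of_closure_subset fun t ht => ?_
    have htI : t ∈ Icc 0 δ := by
      have := closure_mono inter_subset_right ht
      rwa [isClosed_Icc.closure_eq] at this
    have hfr := mem_closure_iff_frequently.1 ht
    by_contra hne
    have htA : t ∉ A := fun h => hne ⟨h, htI⟩
    rcases hγ t with ⟨-, h⟩ | ⟨i, u, hside, hl, hr⟩
    · obtain ⟨r, hr, hr2⟩ := (hfr.and_eventually h).exists
      obtain ⟨e1, e2⟩ := key t r _ htI hr.1 hr2
      exact htA (Prod.ext e2 e1)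
    · rw [eventually_nhdsWithin_iff] at hl hr
      obtain ⟨r, hrm, hr1, hr2⟩ := (hfr.and_eventually (hl.and hr)).exists
      rcases lt_trichotomy r t with hlt | heq | hgt
      · obtain ⟨-, e2⟩ := key t r _ htI hrm.1 (hr1 hlt)
        exact rowC1_side T (e2 ▸ rowC1_mem T hp hθ htI) hside
      · exact htA (heq ▸ hrm.1)
      · obtain ⟨-, e2⟩ := key t r _ htI hrm.1 (hr2 hgt)
        exact rowC1_side T (e2 ▸ rowC1_mem T hp hθ htI) hside
  have h0A : (0 : ℝ) ∈ A := by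
    show γ 0 = mv p (0, θ)
    rw [h0]
    simp [mv]
  refine hcl.Icc_subset_of_forall_exists_gt h0A ?_ hs
  intro t ht y hy
  have htA : γ t = (p + t • θ, θ) := ht.1
  have htI : t ∈ Icc 0 δ := ⟨ht.2.1, ht.2.2.le⟩
  rcases hγ t with ⟨-, h⟩ | ⟨i, u, hside, -, -⟩
  · have h1 : ∀ᶠ r in 𝓝[>] t, r ∈ Ioc t y := Ioc_mem_nhdsGT hy
    obtain ⟨r, hr, hr2⟩ := (h1.and (h.filter_mono nhdsWithin_le_nhds)).exists
    refine ⟨r, ?_, hr⟩
    show γ r = (p + r • θ, θ)
    rw [hr2, htA]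
    refine Prod.ext ?_ rfl
    show p + t • θ + (r - t) • θ = p + r • θ
    rw [sub_smul]; ring
  · rw [htA] at hside
    exact absurd hside (rowC1_side T (rowC1_mem T hp hθ htI))

end Vale.Agent.P099.H366
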