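import Vale.Agent.P099.R2.H366.Defs
import Mathlib.MeasureTheory.Integral.Indicator
import Mathlib.MeasureTheory.Measure.Regular

/-! # P099, wave fronts (H366): row C2, continuity of the flow at time `0` in `L¹`. -/

namespace Vale.Agent.P099.H366

open MeasureTheory Set Filter Topology Vale.Agent.P099 Vale.Agent.P099T

/-- a measure preserving flow which is continuous at time `0` almost everywhere is continuous at
time `0` in `L¹` -/
theorem l1_cont {X : Type} [TopologicalSpace X] [MeasurableSpace X] [BorelSpace X]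
    {μ : Measure X} [IsProbabilityMeasure μ] [μ.OuterRegular] {Θ : ℝ → X → X}
    (hmp : ∀ t, MeasurePreserving (Θ t) μ μ)
    (hc : ∀ᵐ p ∂μ, Tendsto (fun s => Θ s p) (𝓝 0) (𝓝 p)) {A : Set X} (hA : MeasurableSet A)
    {ε : ℝ} (hε : 0 < ε) :
    ∃ δ : ℝ, 0 < δ ∧ ∀ s : ℝ, |s| ≤ δ → μ.real (symmDiff A (Θ s ⁻¹' A)) ≤ ε := by
  -- an open set
  obtain ⟨U, hAU, hUo, -, hU⟩ := hA.exists_isOpen_sdiff_lt (measure_ne_top μ A)
    (ENNReal.ofReal_pos.2 (show 0 < ε / 4 by positivity)).ne'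
  have hUm := hUo.measurableSet
  have hU' : μ.real (U \ A) ≤ ε / 4 := by
    rw [measureReal_def]
    exact ENNReal.toReal_le_of_le_ofReal (by positivity) hU.le
  have hlim : Tendsto (fun s : ℝ => μ (U \ Θ s ⁻¹' U)) (𝓝 0) (𝓝 (μ ∅)) := by
    refine tendsto_measure_of_ae_tendsto_indicator_of_isFiniteMeasure (𝓝 (0:ℝ))
      MeasurableSet.empty (fun s => hUm.diff ((hmp s).measurable hUm)) ?_
    filter_upwards [hc] with p hp
    by_cases hpU : p ∈ U
    · filter_upwards [hp (hUo.mem_nhds hpU)] with s hs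
      simp only [Set.mem_sdiff, mem_preimage, mem_empty_iff_false, iff_false, not_and, not_not]
      exact fun _ => hs
    · exact Eventually.of_forall fun s => by simp [hpU]
  rw [measure_empty] at hlim
  have hev : ∀ᶠ s : ℝ in 𝓝 0, μ (U \ Θ s ⁻¹' U) < ENNReal.ofReal (ε / 4) :=
    hlim.eventually_lt_const (ENNReal.ofReal_pos.2 (by positivity))
  obtain ⟨δ, hδ, hδ'⟩ := Metric.eventually_nhds_iff.1 hev
  refine ⟨δ / 2, by positivity, fun s hs => ?_⟩
  have h1 := hδ' (y := s) (by rw [Real.dist_eq, sub_zero]; linarith)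
  have h1' : μ.real (U \ Θ s ⁻¹' U) ≤ ε / 4 := by
    rw [measureReal_def]
    exact ENNReal.toReal_le_of_le_ofReal (by positivity) h1.le
  have hpre : MeasurableSet (Θ s ⁻¹' A) := (hmp s).measurable hA
  have hpr : ∀ B : Set X, MeasurableSet B → μ.real (Θ s ⁻¹' B) = μ.real B := by
    intro B hB
    rw [measureReal_def, measureReal_def, (hmp s).measure_preimage hB.nullMeasurableSet]
  have h2 : μ.real (A \ Θ s ⁻¹' A) ≤ ε / 4 + ε / 4 := by
    have h3 : A \ Θ s ⁻¹' A ⊆ (U \ Θ s ⁻¹' U) ∪ Θ s ⁻¹' (U \ A) := by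
      rintro p ⟨hp, hp'⟩
      by_cases h : Θ s p ∈ U
      · exact Or.inr ⟨h, hp'⟩
      · exact Or.inl ⟨hAU hp, h⟩
    calc μ.real (A \ Θ s ⁻¹' A) ≤ μ.real ((U \ Θ s ⁻¹' U) ∪ Θ s ⁻¹' (U \ A)) :=
          measureReal_mono h3 (measure_ne_top _ _)
      _ ≤ μ.real (U \ Θ s ⁻¹' U) + μ.real (Θ s ⁻¹' (U \ A)) := measureReal_union_le _ _
      _ ≤ ε / 4 + ε / 4 := by
          rw [hpr _ (hUm.diff hA)]
          linarith
  have h4 : μ.real (Θ s ⁻¹' A \ A) = μ.real (A \ Θ s ⁻¹' A) := by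
    have e1 := measureReal_sdiff_add_inter (μ := μ) (s := A) (t := Θ s ⁻¹' A) hpre
    have e2 := measureReal_sdiff_add_inter (μ := μ) (s := Θ s ⁻¹' A) (t := A) hA
    rw [inter_comm, hpr A hA] at e2
    linarith
  calc μ.real (symmDiff A (Θ s ⁻¹' A)) ≤ μ.real (A \ Θ s ⁻¹' A) + μ.real (Θ s ⁻¹' A \ A) := by
        rw [symmDiff_def]
        exact measureReal_union_le _ _
    _ ≤ ε := by rw [h4]; linarith

/-- the billiard flow is continuous at time `0` almost everywhere -/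
theorem flow_cont {N : ℕ} (T : PolygonalTable N) {Θ : ℝ → ℂ × ℂ → ℂ × ℂ}
    (hb : T.IsBilliardFlow Θ) :
    ∀ᵐ p ∂T.mu, Tendsto (fun s => Θ s p) (𝓝 0) (𝓝 p) := by
  have hQ : ∀ᵐ p ∂T.mu, p.1 ∈ T.Q := by
    have h1 : ∀ᵐ x ∂(ProbabilityTheory.cond (volume : Measure ℂ) T.Q), x ∈ T.Q :=
      ProbabilityTheory.ae_cond_mem T.isOpen.measurableSet
    have h2 : Measure.QuasiMeasurePreserving (Prod.fst : ℂ × ℂ → ℂ) T.mu
        (ProbabilityTheory.cond (volume : Measure ℂ) T.Q) :=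
      Measure.quasiMeasurePreserving_fst
    exact h2.ae h1
  filter_upwards [hb, hQ] with p hp hpQ
  obtain ⟨h0, h1⟩ := hp
  rcases h1 0 with ⟨-, h2⟩ | ⟨i, u, h2, -, -⟩
  · beta_reduce at h2
    rw [h0] at h2
    have h3 : Tendsto (fun s : ℝ => (p.1 + (s - 0) • p.2, p.2)) (𝓝 0) (𝓝 p) := by
      have h4 : Continuous (fun s : ℝ => (p.1 + (s - 0) • p.2, p.2)) := by fun_prop
      have h5 := h4.tendsto 0
      rw [sub_self, zero_smul, add_zero] at h5
      exact h5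
    exact h3.congr' (h2.mono fun s hs => hs.symm)
  · exfalso
    beta_reduce at h2
    rw [h0] at h2
    have h3 : p.1 ∈ frontier T.Q := by
      rw [T.frontier_eq]
      exact mem_iUnion.2 ⟨i, openSegment_subset_segment _ _ _ h2⟩
    rw [T.isOpen.frontier_eq] at h3
    exact h3.2 hpQ

/-- ROW C2 -/
theorem rowC2 {N : ℕ} (T : PolygonalTable N) {Θ : ℝ → ℂ × ℂ → ℂ × ℂ} (hΘ : PFlow T.mu Θ)
    (hb : T.IsBilliardFlow Θ) {A : Set (ℂ × ℂ)} (hA : MeasurableSet A) {ε : ℝ} (hε : 0 < ε) :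
    ∃ δ : ℝ, 0 < δ ∧ ∀ s : ℝ, |s| ≤ δ → T.mu.real (symmDiff A (Θ s ⁻¹' A)) ≤ ε :=
  l1_cont hΘ.mp (flow_cont T hb) hA hε

end Vale.Agent.P099.H366
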